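import Vale.Agent.P225.Plan.Span.Theta

/-!
P225, module D: slots and their entries on the band.
-/

noncomputable section

namespace Vale.Agent.P225

open Matrix SU2 NormedSpace
open scoped ComplexOrder Matrix.Norms.L2Operator

attribute [local irreducible] band

/-- The entries of the real unit from the key `b` to the key `a`. -/
def slotEnt (a b : Key) (z : ℂ) (κ μ : Key) : ℂ :=
  if a.1 % 2 = 0 then (if κ = a ∧ μ = b then (z.re : ℂ) else 0)
  else (if κ = a ∧ μ = b then z else 0) +
    if κ = flKey a ∧ μ = flKey b then star z * (keySgn a * keySgn b) else 0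

theorem slotEnt_lbl {a b κ μ : Key} {z : ℂ} (h : slotEnt a b z κ μ ≠ 0) :
    κ.1 = a.1 ∧ μ.1 = b.1 := by
  by_contra hc
  refine h ?_
  have d1 : ¬(κ = a ∧ μ = b) := fun e => hc ⟨by rw [e.1], by rw [e.2]⟩
  have d2 : ¬(κ = flKey a ∧ μ = flKey b) := fun e => hc ⟨by rw [e.1]; rfl, by rw [e.2]; rfl⟩
  simp [slotEnt, d1, d2]

theorem slotEnt_add (a b : Key) (z w : ℂ) (κ μ : Key) :
    slotEnt a b (z + w) κ μ = slotEnt a b z κ μ + slotEnt a b w κ μ := by
  simp only [slotEnt, Complex.add_re, Complex.ofReal_add, star_add]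
  split_ifs <;> ring

theorem slotEnt_smul (a b : Key) (r : ℝ) (z : ℂ) (κ μ : Key) :
    slotEnt a b (r • z) κ μ = r • slotEnt a b z κ μ := by
  simp only [slotEnt, Complex.real_smul, star_mul', Complex.star_def, Complex.conj_ofReal,
    Complex.re_ofReal_mul, Complex.ofReal_mul]
  split_ifs <;> ring

theorem realUnit_entry {p : ℕ × ℕ} (u w α β : BlkIdx p) (z : ℂ) :
    star (blkVec p α) ⬝ᵥ (realUnit p u w z *ᵥ blkVec p β) =
      slotEnt (bkey u) (bkey w) z (bkey α) (bkey β) := by
  have hu : blkFlip p u = u ∧ blkFlip p w = w ↔ (bkey u).1 % 2 = 0 := by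
    rw [blkFlip_parity, blkFlip_parity]
    have := parity_eq u w
    show _ ↔ (u.1.1 : ℕ) % 2 = 0
    omega
  have e : ∀ u w : BlkIdx p, star (blkVec p α) ⬝ᵥ (unitMat p u w *ᵥ blkVec p β) =
      if bkey α = bkey u ∧ bkey β = bkey w then 1 else 0 := by
    intro u w
    rw [unitMat_mulVec]
    simp only [bkey_injective.eq_iff]
    by_cases h : w = β
    · subst h
      rw [if_pos rfl, blkVec_orthonormal]
      simp
    · rw [if_neg h, dotProduct_zero, if_neg fun e => h e.2.symm]
  unfold realUnit slotEnt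
  simp only [hu]
  by_cases h : (bkey u).1 % 2 = 0
  · simp only [if_pos h, smul_mulVec, dotProduct_smul, e, smul_eq_mul, mul_ite, mul_one, mul_zero]
  · simp only [if_neg h, add_mulVec, smul_mulVec, dotProduct_add, dotProduct_smul, e, bkey_blkFlip,
      smul_eq_mul, flipSgn_star, keySgn_bkey, mul_ite, mul_one, mul_zero, mul_assoc]

/-- The slot matrix on the band. -/
def slotE (G : Fin 3) (t : Lbl) (a b : Key) : ℂ →ₗ[ℝ] Matrix BPt BPt ℂ where
  toFun z := Matrix.of fun x y =>
    if ∀ j, j ≠ G → crdKey j (bcrd x) = crdKey j (bcrd y) ∧ (bcrd x).1 j = t j then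
      slotEnt a b z (crdKey G (bcrd x)) (crdKey G (bcrd y)) else 0
  map_add' z w := by
    ext x y
    simp only [Matrix.add_apply, Matrix.of_apply, slotEnt_add]
    split_ifs <;> simp
  map_smul' r z := by
    ext x y
    simp only [Matrix.smul_apply, Matrix.of_apply, RingHom.id_apply, slotEnt_smul, smul_ite,
      smul_zero]

theorem slotE_apply (G : Fin 3) (t : Lbl) (a b : Key) (z : ℂ) (x y : BPt) :
    slotE G t a b z x y =
      if ∀ j, j ≠ G → crdKey j (bcrd x) = crdKey j (bcrd y) ∧ (bcrd x).1 j = t j then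
        slotEnt a b z (crdKey G (bcrd x)) (crdKey G (bcrd y)) else 0 := rfl

theorem slotE_support {G : Fin 3} {t u : Lbl} (hu : ∀ j, j ≠ G → u j = t j) {a b : Key}
    (ha : a.1 = t G) (hb : b.1 = u G) (z : ℂ) (x y : BPt) (h : slotE G t a b z x y ≠ 0) :
    lab x.1.out = t ∧ lab y.1.out = u := by
  rw [slotE_apply] at h
  split_ifs at h with hs
  · obtain ⟨h1, h2⟩ := slotEnt_lbl h
    constructor <;> funext j <;> by_cases hj : j = G
    · subst hj; exact h1.trans ha
    · exact (hs j hj).2
    · subst hj; exact h2.trans hb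
    · rw [hu j hj]
      exact (congrArg Prod.fst (hs j hj).1).symm.trans (hs j hj).2
  · exact absurd rfl h

/-- The slot between two points differing in the moving coordinate. -/
theorem exists_slot {G : Fin 3} {x y : BPt} (hm : Move G (lab x.1.out) (lab y.1.out))
    (h1 : 1 ≤ lab x.1.out (G + 1)) (h2 : 1 ≤ lab x.1.out (G + 2)) :
    ∃ s : StageSpec, StageOK s ∧ ∀ z, s.bandMat z =
      1 + slotE G (lab x.1.out) (crdKey G (bcrd x)) (crdKey G (bcrd y)) z := by
  obtain ⟨o1, o2⟩ := fin3_succ_ne G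
  set p : bandBlocks G :=
    ⟨(lab x.1.out (G + 1), lab x.1.out (G + 2)), mem_bandBlocks x.2⟩ with hp
  obtain ⟨u, hu⟩ := exists_blkIdx (G := G) (p := p.1) (bcrd_valid x) rfl
  obtain ⟨w, hw⟩ := exists_blkIdx (G := G) (p := p.1) (bcrd_valid y)
    (Prod.ext (hm.1 _ o1) (hm.1 _ o2))
  have hne : u.1 ≠ w.1 := fun e => hm.2 (by
    have := congrArg (fun v => ((v.1 : Fin _) : ℕ)) e
    exact ((congrArg Prod.fst hu).symm.trans (this.trans (congrArg Prod.fst hw))).symm)
  have ht := fun z => transvection_target p (by show lab x.1.out (G + 1) ≠ 0; omega)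
    (by show lab x.1.out (G + 2) ≠ 0; omega) u w hne z
  let N : ℂ →ₗ[ℝ] BlkAlg (bandBlocks G) :=
    { toFun := fun z => inBlk p (realUnit p.1 u w z)
      map_add' := fun z z' => by
        rw [inBlk, inBlk, inBlk, ← Pi.single_add]
        refine congrArg _ ?_
        unfold realUnit
        split_ifs <;> simp [add_smul, star_add, add_mul]; abel
      map_smul' := fun r z => by
        rw [RingHom.id_apply, inBlk, inBlk, ← Pi.single_smul]
        refine congrArg _ ?_
        unfold realUnit
        split_ifs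
        · rw [← smul_assoc]; simp [Complex.real_smul]
        · rw [smul_add, ← smul_assoc, ← smul_assoc]
          simp [Complex.real_smul, mul_assoc] }
  refine ⟨⟨G, 0, N⟩, ?_⟩
  have htgt : ∀ z, (⟨G, 0, N⟩ : StageSpec).tgt z = 1 + inBlk p (realUnit p.1 u w z) := fun z => by
    simp [StageSpec.tgt, exp_zero, N]
  have hent : ∀ z (a b : Pnt), tessEntry G (extBlk ((⟨G, 0, N⟩ : StageSpec).tgt z)) a b =
      (if crd a = crd b then 1 else 0) + if SameBlk G a b ∧ blkLab G a = p.1 then
        slotEnt (bkey u) (bkey w) z (crdKey G (crd a)) (crdKey G (crd b)) else 0 := fun z a b =>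
    tessEntry_add_blk (htgt z) (fun α β => realUnit_entry u w α β z) a b
  refine ⟨⟨fun q => ⟨by simp [IsRealBlk], by simp, fun _ => rfl⟩, fun z => ?_, fun z a b hb => ?_⟩,
    fun z => ?_⟩
  · rw [htgt, ← (ht z).2]
    exact exp_isTarget (ht z).1
  · have hlab : ∀ a' b' : Pnt, SameBlk G a' b' → blkLab G a' = p.1 →
        slotEnt (bkey u) (bkey w) z (crdKey G (crd a')) (crdKey G (crd b')) ≠ 0 →
        lab a' ∈ band ∧ lab b' ∈ band := by
      intro a' b' hs hp' hne
      obtain ⟨e1, e2⟩ := slotEnt_lbl hne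
      rw [hu] at e1
      rw [hw] at e2
      have ea : lab a' = lab x.1.out := funext fun j => by
        rcases fin3_trichotomy G j with rfl | rfl | rfl
        · exact e1
        · exact congrArg Prod.fst hp'
        · exact congrArg Prod.snd hp'
      have eb : lab b' = lab y.1.out := funext fun j => by
        rcases fin3_trichotomy G j with rfl | rfl | rfl
        · exact e2
        · rw [← hs.1, hm.1 _ o1]; exact congrArg Prod.fst hp'
        · rw [← hs.2.1, hm.1 _ o2]; exact congrArg Prod.snd hp'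
      exact ⟨ea ▸ x.2, eb ▸ y.2⟩
    constructor <;> refine gaugeEntry_eq_zero _ _ _ _ fun a' b' ha' hb' => ?_ <;>
      rw [hent, if_neg, zero_add]
    · by_contra hne
      split_ifs at hne with hc
      · exact hb (hb' ▸ (hlab a' b' hc.1 hc.2 hne).2)
      · exact hne rfl
    · intro e
      refine hb (hb' ▸ ?_)
      rw [← show lab a' = lab b' from congrArg Prod.fst e, ha']
      exact a.2
    · by_contra hne
      split_ifs at hne with hc
      · exact hb (ha' ▸ (hlab a' b' hc.1 hc.2 hne).1)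
      · exact hne rfl
    · intro e
      refine hb (ha' ▸ ?_)
      rw [show lab a' = lab b' from congrArg Prod.fst e, hb']
      exact a.2
  · ext a b
    rw [StageSpec.bandMat, bandOf_eq, hent, Matrix.add_apply, Matrix.one_apply, slotE_apply]
    refine congrArg₂ (· + ·) (if_congr ⟨fun e => bcrd_injective e, fun e => e ▸ rfl⟩ rfl rfl) ?_
    rw [hu, hw]
    refine if_congr ⟨fun h j hj => ?_, fun h => ?_⟩ rfl rfl
    · rcases fin3_trichotomy G j with rfl | rfl | rfl
      · exact absurd rfl hj
      · exact ⟨Prod.ext h.1.1 h.1.2.2.1, congrArg Prod.fst h.2⟩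
      · exact ⟨Prod.ext h.1.2.1 h.1.2.2.2, congrArg Prod.snd h.2⟩
    · exact ⟨⟨congrArg Prod.fst (h _ o1).1, congrArg Prod.fst (h _ o2).1,
        congrArg Prod.snd (h _ o1).1, congrArg Prod.snd (h _ o2).1⟩,
        Prod.ext (h _ o1).2 (h _ o2).2⟩

end Vale.Agent.P225
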