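import Vale.Agent.P225.Plan.Span.Moves
import Vale.Agent.P225.Plan.Span.Slot

/-!
P225, module D: the span of the moved slots is closed under moves of the columns.
-/

noncomputable section

namespace Vale.Agent.P225

open Matrix SU2 NormedSpace
open scoped ComplexOrder Matrix.Norms.L2Operator

attribute [local irreducible] band

/-- A moved slot with a value. -/
structure Gen (t u : Lbl) where
  pre : List StageSpec
  post : List StageSpec
  slot : StageSpec
  E : ℂ →ₗ[ℝ] Matrix BPt BPt ℂ
  z : ℂ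
  preCls : ∀ s ∈ pre, ClsStage s
  postCls : ∀ s ∈ post, ClsStage s
  inv : stageProd pre * stageProd post = 1
  slotOK : StageOK slot
  slotMat : ∀ z, slot.bandMat z = 1 + E z
  support : ∀ z x y, E z x y ≠ 0 → lab x.1.out = t ∧ lab y.1.out = u

/-- The matrix of a moved slot. -/
def Gen.mat {t u : Lbl} (g : Gen t u) : Matrix BPt BPt ℂ :=
  stageProd g.pre * g.E g.z * stageProd g.post

/-- Combinations of moved slots. -/
def genSpan (t u : Lbl) : Submodule ℝ (Matrix BPt BPt ℂ) :=
  Submodule.span ℝ (Set.range (Gen.mat (t := t) (u := u)))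

/-- Combinations whose entries are in the rows of `t` and the columns of `u`. -/
def movedSpan (t u : Lbl) : Submodule ℝ (Matrix BPt BPt ℂ) where
  carrier := {M | M ∈ genSpan t u ∧ ∀ x y, M x y ≠ 0 → lab x.1.out = t ∧ lab y.1.out = u}
  add_mem' := fun {M N} hM hN => ⟨add_mem hM.1 hN.1, fun x y h => by
    by_cases h' : M x y = 0
    · exact hN.2 x y fun e => h (by simp [h', e])
    · exact hM.2 x y h'⟩
  zero_mem' := ⟨zero_mem _, fun x y h => absurd rfl h⟩
  smul_mem' := fun r M hM => ⟨Submodule.smul_mem _ r hM.1, fun x y h => hM.2 x y fun e => h (by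
    simp [e])⟩

theorem slot_mem {t u : Lbl} {s : StageSpec} (hs : StageOK s) {E : ℂ →ₗ[ℝ] Matrix BPt BPt ℂ}
    (hE : ∀ z, s.bandMat z = 1 + E z)
    (hsup : ∀ z x y, E z x y ≠ 0 → lab x.1.out = t ∧ lab y.1.out = u) (z : ℂ) :
    E z ∈ movedSpan t u :=
  ⟨Submodule.subset_span ⟨⟨[], [], s, E, z, by simp, by simp, by simp [stageProd], hs, hE, hsup⟩,
    by simp [Gen.mat, stageProd]⟩, hsup z⟩

/-- Moves of the columns stay in the span. -/
theorem right_mem {k : Fin 3} {t u : Lbl} {p : ℕ × ℕ} {g : Key → Key} {c : Key → ℂ}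
    (h : RightOK t (act k p g) (actCoef k p c)) (hg : ∀ κ, (g κ).1 = κ.1)
    {M : Matrix BPt BPt ℂ} (hM : M ∈ movedSpan t u) :
    M * monoBand (act k p g) (actCoef k p c) ∈ movedSpan t u := by
  obtain ⟨l, l', hl, hl', hinv, hmat, hfix⟩ := h
  refine ⟨?_, fun x y hxy => ?_⟩
  · have hle : genSpan t u ≤ (genSpan t u).comap
        ((LinearMap.mulRight ℝ (stageProd l')).comp (LinearMap.mulLeft ℝ (stageProd l))) := by
      refine Submodule.span_le.2 ?_
      rintro - ⟨e, rfl⟩
      rw [SetLike.mem_coe, Submodule.mem_comap, LinearMap.comp_apply, LinearMap.mulLeft_apply,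
        LinearMap.mulRight_apply]
      refine Submodule.subset_span ⟨⟨l ++ e.pre, e.post ++ l', e.slot, e.E, e.z,
        fun s hs => (List.mem_append.1 hs).elim (hl s) (e.preCls s),
        fun s hs => (List.mem_append.1 hs).elim (e.postCls s) (hl' s), ?_, e.slotOK, e.slotMat,
        e.support⟩, ?_⟩
      · rw [stageProd_append, stageProd_append, mul_assoc, ← mul_assoc (stageProd e.pre), e.inv,
          one_mul, hinv]
      · simp [Gen.mat, stageProd_append, mul_assoc]
    have := hle hM.1
    simp only [Submodule.mem_comap, LinearMap.comp_apply, LinearMap.mulLeft_apply,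
      LinearMap.mulRight_apply] at this
    rwa [hfix M fun x y e => (hM.2 x y e).1, hmat] at this
  · rw [Matrix.mul_apply] at hxy
    obtain ⟨z, -, hz⟩ := Finset.exists_ne_zero_of_sum_ne_zero hxy
    obtain ⟨e1, e2⟩ := hM.2 x z fun e => hz (by simp [e])
    refine ⟨e1, ?_⟩
    have : bcrd z = act k p g (bcrd y) := by
      by_contra e; exact hz (by simp [monoBand, e])
    rw [← e2]
    have e3 := congrArg Prod.fst this
    show (bcrd y).1 = (bcrd z).1
    rw [e3, act]
    split_ifs
    · show (bcrd y).1 = Function.update (bcrd y).1 k _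
      rw [hg]; exact (Function.update_eq_self k (bcrd y).1).symm
    · rfl

/-- A diagonal move multiplies the entries. -/
theorem diag_mem {k : Fin 3} {t u : Lbl} {p : ℕ × ℕ} (hp : (u (k + 1), u (k + 2)) = p)
    {c : Key → ℂ} (h : RightOK t (act k p id) (actCoef k p c)) {M : Matrix BPt BPt ℂ}
    (hM : M ∈ movedSpan t u) :
    (Matrix.of fun x y => M x y * c (crdKey k (bcrd y))) ∈ movedSpan t u := by
  have e : M * monoBand (act k p id) (actCoef k p c) =
      Matrix.of fun x y => M x y * c (crdKey k (bcrd y)) := by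
    ext x y
    have hy : bcrd y = act k p id (bcrd y) := by
      unfold act
      split_ifs
      · simp [crdKey]
      · rfl
    rw [mul_act_apply M x y y hy, Matrix.of_apply]
    by_cases h0 : M x y = 0
    · simp [h0]
    · rw [actCoef, if_pos]
      rw [show (bcrd y).1 = u from (hM.2 x y h0).2, hp]
  exact e ▸ right_mem h (fun _ => rfl) hM

/-- The situation of the spectator `k` of columns of label `u` against rows of label `t`. -/
structure Spect (t u : Lbl) (k : Fin 3) : Prop where
  mem : u ∈ band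
  sep : (t (k + 1), t (k + 2)) ≠ (u (k + 1), u (k + 2))
  pos1 : u (k + 1) ≠ 0
  pos2 : u (k + 2) ≠ 0

/-- Selection of one class of a spectator. -/
theorem sel_mem {k : Fin 3} {t u : Lbl} (hk : Spect t u k) {a : Key} (ha : a.1 = u k)
    (ha' : a.2 ≤ a.1) {M : Matrix BPt BPt ℂ} (hM : M ∈ movedSpan t u) :
    (Matrix.of fun x y => if crdKey k (bcrd y) = a ∨ crdKey k (bcrd y) = flKey a then M x y else 0)
      ∈ movedSpan t u := by
  obtain ⟨o1, o2⟩ := fin3_succ_ne k
  set p : bandBlocks k := ⟨(u (k + 1), u (k + 2)), mem_bandBlocks hk.mem⟩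
  obtain ⟨w, hw⟩ := exists_blkIdx (G := k) (p := p.1)
    (z := (u, fun j => if j = k then a.2 else 0)) ⟨hk.mem, fun j => by
      show (if j = k then a.2 else 0) ≤ u j
      split_ifs with hj
      · rw [hj, ← ha]; exact ha'
      · exact Nat.zero_le _⟩ rfl
  replace hw : bkey w = a := hw.trans (Prod.ext ha.symm (by simp [crdKey]))
  have hlt := w.1.2
  set v0 : ℕ := if a.1 = p.1.1 + p.1.2 then p.1.1 + p.1.2 - 2 else p.1.1 + p.1.2
  have hp1 : p.1.1 ≠ 0 := hk.pos1
  have hp2 : p.1.2 ≠ 0 := hk.pos2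
  let v : BlkIdx p.1 := ⟨⟨⟨v0, by simp only [v0]; split_ifs <;> omega⟩, by
    simp only [v0, Nat.even_iff]; split_ifs <;> omega⟩, 0⟩
  have hv : (bkey v).1 ≠ a.1 := by
    show v0 ≠ a.1
    simp only [v0]; split_ifs <;> omega
  have hs := rightOK_sign hk.sep hp1 hp2 w v (fun e => hv (by rw [← hw, e]))
    (fun e => hv (by rw [← hw, e, bkey_blkFlip]; rfl))
  have := Submodule.smul_mem _ (1 / 2 : ℝ) (sub_mem hM (diag_mem rfl hs hM))
  refine cast (congrArg (· ∈ movedSpan t u) ?_) this
  ext x y
  simp only [Matrix.smul_apply, Matrix.sub_apply, Matrix.of_apply, hw]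
  by_cases h0 : M x y = 0
  · simp [h0]
  have e : (crdKey k (bcrd y)).1 = a.1 := (congrFun (hM.2 x y h0).2 k).trans ha.symm
  have d1 : crdKey k (bcrd y) ≠ bkey v := fun h => hv (by rw [← h]; exact e)
  have d2 : crdKey k (bcrd y) ≠ flKey (bkey v) := fun h => hv (by
    rw [h] at e; exact e)
  simp only [sgC, d1, d2, or_false]
  split_ifs <;> simp [Complex.real_smul]
  ring

/-- Phases on a pair of a spectator. -/
theorem phase_mem {k : Fin 3} {t u : Lbl} (hk : Spect t u k) {y0 : BPt} (hy0 : lab y0.1.out = u)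
    (hodd : u k % 2 = 1) {M : Matrix BPt BPt ℂ} (hM : M ∈ movedSpan t u) :
    (Matrix.of fun x y => M x y * phC (crdKey k (bcrd y0)) Complex.I (crdKey k (bcrd y)))
      ∈ movedSpan t u := by
  set p : bandBlocks k := ⟨(u (k + 1), u (k + 2)), mem_bandBlocks hk.mem⟩
  obtain ⟨w, hw⟩ := exists_blkIdx (G := k) (p := p.1) (bcrd_valid y0)
    (by rw [show (bcrd y0).1 = u from hy0])
  have hne : blkFlip p.1 w ≠ w := fun e => by
    have e' : (bkey w).1 % 2 = 0 := blkFlip_parity.1 e
    rw [hw, show (crdKey k (bcrd y0)).1 = u k from congrFun hy0 k] at e'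
    omega
  exact hw ▸ diag_mem rfl (rightOK_phase hk.sep hk.pos1 hk.pos2 w hne) hM

end Vale.Agent.P225
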