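import Vale.Agent.P225.Plan.Span.Orbit

/-!
P225, module D: flips of the spectators reach every pair of a class.
-/

noncomputable section

namespace Vale.Agent.P225

open Matrix SU2 NormedSpace
open scoped ComplexOrder Matrix.Norms.L2Operator

attribute [local irreducible] band

theorem flG_involutive {a κ : Key} (hne : flKey a ≠ a) : flG a (flG a κ) = κ := by
  by_cases e : κ = a
  · subst e; simp [flG, hne]
  · by_cases e' : κ = flKey a
    · subst e'; simp [flG, hne]
    · simp [flG, e, e']

/-- Changing one spectator of the column to its partner. -/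
theorem flip_step {G k : Fin 3} {x y y' : BPt}
    (hk : Spect (lab x.1.out) (lab y.1.out) k)
    (hlab : lab y'.1.out = lab y.1.out)
    (hy : crdKey k (bcrd y) = flKey (crdKey k (bcrd y')))
    (hne : flKey (crdKey k (bcrd y')) ≠ crdKey k (bcrd y'))
    (hrest : ∀ i, i ≠ k → crdKey i (bcrd y) = crdKey i (bcrd y')) (hkG : k ≠ G) (z : ℂ)
    (hM : orb x y' (-z) ∈ movedSpan (lab x.1.out) (lab y.1.out)) :
    orb x y z ∈ movedSpan (lab x.1.out) (lab y.1.out) := by
  set a := crdKey k (bcrd y') with ha
  set u := lab y.1.out with hu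
  set p : bandBlocks k := ⟨(u (k + 1), u (k + 2)), mem_bandBlocks y.2⟩
  obtain ⟨o1, o2⟩ := fin3_succ_ne k
  obtain ⟨w, hw⟩ := exists_blkIdx (G := k) (p := p.1) (bcrd_valid y')
    (by show (lab y'.1.out (k + 1), lab y'.1.out (k + 2)) = _; rw [hlab])
  have hwne : blkFlip p.1 w ≠ w := fun e => hne (by
    have := congrArg bkey e
    rwa [bkey_blkFlip, hw] at this)
  have hR := rightOK_flip (t := lab x.1.out) hk.sep hk.pos1 hk.pos2 w hwne
  rw [hw] at hR
  have hg : ∀ κ, (flG a κ).1 = κ.1 := fun κ => by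
    unfold flG
    split_ifs with e e'
    · rw [e]; rfl
    · rw [e']; rfl
    · rfl
  refine cast (congrArg (· ∈ movedSpan (lab x.1.out) u) ?_) (right_mem hR hg hM)
  ext α β
  set f := act k p.1 (flG a) with hf
  have hkey : ∀ c : Crd, c.1 = u → ∀ i,
      crdKey i (f c) = if i = k then flG a (crdKey k c) else crdKey i c := by
    intro c hc i
    rw [hf, act, if_pos (by rw [hc])]
    by_cases hi : i = k
    · subst hi; simp [crdKey]
    · simp [crdKey, hi]
  have keys3 : ∀ c d : Crd, (∀ i, crdKey i c = crdKey i d) → c = d := fun c d h =>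
    crd_ext (h k) fun i _ => ⟨congrArg Prod.fst (h i), congrArg Prod.snd (h i)⟩
  have hff : ∀ c : Crd, c.1 = u → f (f c) = c ∧ (f c).1 = u := by
    intro c hc
    have h1 : (f c).1 = u := funext fun i => by
      refine (congrArg Prod.fst (hkey c hc i)).trans ?_
      split_ifs with hi
      · subst hi; rw [hg]; exact congrFun hc i
      · exact congrFun hc i
    refine ⟨keys3 _ _ fun i => ?_, h1⟩
    rw [hkey _ h1, hkey _ hc, hkey _ hc]
    by_cases hi : i = k
    · subst hi; simp [flG_involutive hne]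
    · simp [hi]
  have hy'u : (bcrd y').1 = u := hlab
  have hthy : f (thCrd (bcrd y)) = thCrd (bcrd y') := keys3 _ _ fun i => by
    rw [hkey _ rfl, crdKey_thCrd, crdKey_thCrd, crdKey_thCrd]
    by_cases hi : i = k
    · subst hi
      rw [if_pos rfl, hy, flKey_flKey (k := a) ((bcrd_valid y').2 i)]
      show flG a a = flKey a
      simp [flG]
    · rw [if_neg hi, hrest i hi]
  have hfy : f (bcrd y) = bcrd y' := keys3 _ _ fun i => by
    rw [hkey _ rfl]
    by_cases hi : i = k
    · subst hi
      rw [if_pos rfl, hy, flG, if_neg hne, if_pos rfl]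
    · rw [if_neg hi, hrest i hi]
  have hsgn : thSgn (bcrd y') = -thSgn (bcrd y) := by
    unfold thSgn
    rw [← Finset.mul_prod_erase _ _ (Finset.mem_univ k),
      ← Finset.mul_prod_erase _ (fun i => keySgn ((bcrd y).1 i, (bcrd y).2 i)) (Finset.mem_univ k)]
    show keySgn a * _ = -(keySgn (crdKey k (bcrd y)) * _)
    rw [hy, keySgn_flKey ?_ ((bcrd_valid y').2 k), neg_mul, neg_neg]
    · refine congrArg _ (Finset.prod_congr rfl fun i hi => ?_)
      exact congrArg keySgn (hrest i (Finset.ne_of_mem_erase hi)).symm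
    · by_contra e
      exact hne (flKey_even (show a.1 % 2 = 0 by omega))
  by_cases hβ : (bcrd β).1 = u
  · obtain ⟨β', hβ'⟩ := exists_bcrd (c := f (bcrd β)) ⟨(hff _ hβ).2 ▸ y.2, fun i => by
      have e := hkey _ hβ i
      show (crdKey i (f (bcrd β))).2 ≤ (crdKey i (f (bcrd β))).1
      rw [e]
      split_ifs with hi
      · unfold flG
        split_ifs
        · exact flKey_le ((bcrd_valid y').2 k)
        · exact (bcrd_valid y').2 k
        · exact (bcrd_valid β).2 k
      · exact (bcrd_valid β).2 i⟩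
    rw [mul_act_apply _ α β β' hβ', orb_apply, orb_apply, hβ']
    have i1 : f (bcrd β) = bcrd y' ↔ bcrd β = bcrd y :=
      ⟨fun e => by rw [← (hff _ hβ).1, e, ← hfy, (hff _ rfl).1], fun e => e ▸ hfy⟩
    have i2 : f (bcrd β) = thCrd (bcrd y') ↔ bcrd β = thCrd (bcrd y) :=
      ⟨fun e => by rw [← (hff _ hβ).1, e, ← hthy, (hff _ rfl).1], fun e => e ▸ hthy⟩
    simp only [i1, i2]
    rw [actCoef, if_pos (show ((bcrd β).1 (k + 1), (bcrd β).1 (k + 2)) = p.1 by rw [hβ])]
    have c1 : bcrd β = bcrd y → flC a (crdKey k (bcrd β)) = -1 := fun e => by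
      rw [e, hy, flC, if_pos rfl]
    have c2 : bcrd β = thCrd (bcrd y) → flC a (crdKey k (bcrd β)) = 1 := fun e => by
      rw [e, crdKey_thCrd, hy, flKey_flKey (k := a) ((bcrd_valid y').2 k), flC,
        if_neg (Ne.symm hne)]
    have hne2 : ¬(bcrd y = thCrd (bcrd y)) := fun e => by
      have := congrArg (crdKey k) e
      rw [crdKey_thCrd, hy, flKey_flKey (k := a) ((bcrd_valid y').2 k)] at this
      exact hne this
    by_cases b1 : bcrd β = bcrd y
    · rw [c1 b1]
      simp only [b1, hne2, and_true, and_false, if_false, add_zero, mul_neg, mul_one]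
      split_ifs <;> simp
    · by_cases b2 : bcrd β = thCrd (bcrd y)
      · rw [c2 b2, hsgn]
        simp [b1, b2, Ne.symm hne2]
      · simp [b1, b2]
  · have e2 : orb x y z α β = 0 := by
      rw [orb_apply, if_neg (fun e => hβ (by rw [e.2]; rfl)),
        if_neg (fun e => hβ (by rw [e.2]; rfl)), add_zero]
    rw [e2]
    by_contra hnz
    exact hβ ((right_mem hR hg hM).2 α β hnz).2

/-- Every orbit from the first class to the second is in the span. -/
theorem orb_mem {G : Fin 3} {X Y : UPoint} (h : IsSlotPair G X Y) {x y : BPt} (hx : uOf x = X)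
    (hy : uOf y = Y) (z : ℂ) : orb x y z ∈ movedSpan X.lbl Y.lbl := by
  obtain ⟨hm, hcas, hidx, h1, h2⟩ := h
  subst hx hy
  change Move G (lab x.1.out) (lab y.1.out) at hm
  show orb x y z ∈ movedSpan (lab x.1.out) (lab y.1.out)
  obtain ⟨o1, o2⟩ := fin3_succ_ne G
  have hG : 1 ≤ lab y.1.out G := by
    by_contra e
    have : cas4 (lab y.1.out) ≤ cas4 (lab x.1.out) := by
      refine Finset.sum_le_sum fun i _ => ?_
      by_cases hi : i = G
      · subst hi; simp [show lab y.1.out i = 0 by omega]
      · rw [hm.1 i hi]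
    exact absurd (lt_of_lt_of_le hcas this) (lt_irrefl _)
  have hcl : ∀ i, i ≠ G → crdKey i (bcrd y) = crdKey i (bcrd x) ∨
      crdKey i (bcrd y) = flKey (crdKey i (bcrd x)) := by
    intro i hi
    have e : (bcrd y).1 i = (bcrd x).1 i := hm.1 i hi
    have := key_cases (a := (bcrd x).1 i) (e ▸ (bcrd_valid y).2 i) ((bcrd_valid x).2 i) (by
      have q : unsIdx ((bcrd x).1 i) ((bcrd x).2 i) = unsIdx ((bcrd y).1 i) ((bcrd y).2 i) :=
        hidx i hi
      rw [q, e])
    simpa [crdKey, e] using this
  -- the columns with the spectators of `x` at `S`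
  have hex : ∀ S : Fin 3 → Bool, ∃ w : BPt, lab w.1.out = lab y.1.out ∧
      ∀ i, crdKey i (bcrd w) = if i ≠ G ∧ S i then crdKey i (bcrd x) else crdKey i (bcrd y) := by
    intro S
    obtain ⟨w, hw⟩ := exists_bcrd (c := ((bcrd y).1, fun i =>
        if i ≠ G ∧ S i then (bcrd x).2 i else (bcrd y).2 i))
      ⟨y.2, fun i => by
        show (if i ≠ G ∧ S i then _ else _) ≤ (bcrd y).1 i
        split_ifs with hi
        · exact le_of_le_of_eq ((bcrd_valid x).2 i) (hm.1 i hi.1).symm
        · exact (bcrd_valid y).2 i⟩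
    refine ⟨w, congrArg Prod.fst hw, fun i => ?_⟩
    rw [hw]
    unfold crdKey
    split_ifs with hi
    · simp only [if_pos hi]; exact Prod.ext (hm.1 i hi.1) rfl
    · simp only [if_neg hi]
  have step : ∀ (k : Fin 3) (w w' : BPt), k ≠ G → lab w.1.out = lab y.1.out →
      lab w'.1.out = lab y.1.out → crdKey k (bcrd w') = crdKey k (bcrd x) →
      (crdKey k (bcrd w) = crdKey k (bcrd x) ∨
        crdKey k (bcrd w) = flKey (crdKey k (bcrd x))) →
      (∀ i, i ≠ k → crdKey i (bcrd w) = crdKey i (bcrd w')) →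
      (∀ z, orb x w' z ∈ movedSpan (lab x.1.out) (lab y.1.out)) →
      ∀ z, orb x w z ∈ movedSpan (lab x.1.out) (lab y.1.out) := by
    intro k w w' hk hw hw' e' e hr hmem z
    by_cases es : crdKey k (bcrd w) = crdKey k (bcrd x)
    · have : w = w' := bcrd_injective <| crd_ext (G := k) (es.trans e'.symm) fun i hi =>
        ⟨congrArg Prod.fst (hr i hi), congrArg Prod.snd (hr i hi)⟩
      exact this ▸ hmem z
    · have e1 := e.resolve_left es
      have hsp : Spect (lab x.1.out) (lab w.1.out) k := by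
        rw [hw]
        have hy : ∀ i, lab y.1.out i ≠ 0 := fun i => by
          rcases fin3_trichotomy G i with rfl | rfl | rfl
          · exact Nat.one_le_iff_ne_zero.1 hG
          · rw [hm.1 _ o1]; exact Nat.one_le_iff_ne_zero.1 h1
          · rw [hm.1 _ o2]; exact Nat.one_le_iff_ne_zero.1 h2
        refine ⟨y.2, fun q => hm.2 ?_, hy _, hy _⟩
        have c : G = k + 1 ∨ G = k + 2 := by revert hk; fin_cases G <;> fin_cases k <;> decide
        rcases c with c | c <;> rw [c]
        · exact (congrArg Prod.fst q).symm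
        · exact (congrArg Prod.snd q).symm
      have := flip_step (G := G) (y := w) (y' := w') hsp (hw'.trans hw.symm) (e1.trans (by rw [e']))
        (by rw [e', ← e1]; exact es) hr hk z (hw ▸ hmem (-z))
      exact hw ▸ this
  obtain ⟨w0, hl0, hk0⟩ := hex fun _ => true
  obtain ⟨w1, hl1, hk1⟩ := hex fun i => decide (i = G + 1)
  have base : ∀ z, orb x w0 z ∈ movedSpan (lab x.1.out) (lab y.1.out) := fun z => by
    have := orb0_mem (G := G) (x := x) (y := w0) ⟨hl0 ▸ hm, fun i hi => by simp [hk0, hi], h1, h2,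
      hl0 ▸ hG⟩ z
    exact hl0 ▸ this
  have mid := step (G + 2) w1 w0 o2 hl1 hl0 (by simp [hk0, o2])
    (by
      have : G + 2 ≠ G + 1 := by omega
      simpa [hk1, this] using hcl _ o2)
    (fun i hi => by
      rw [hk1, hk0]
      rcases fin3_trichotomy G i with rfl | rfl | rfl
      · simp
      · simp
      · exact absurd rfl hi) base
  exact step (G + 1) y w1 o1 rfl hl1 (by simp [hk1, o1]) (hcl _ o1)
    (fun i hi => by
      rw [hk1]
      simp [hi]) mid z

end Vale.Agent.P225
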