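import Vale.Agent.P225.Plan.Span.Pairs

/-!
P225, module D: signs, phases and flips of one coordinate as right moves.
-/

noncomputable section

namespace Vale.Agent.P225

open Matrix SU2 NormedSpace
open scoped ComplexOrder Matrix.Norms.L2Operator

attribute [local irreducible] band

/-- A phase on the pair of `a`. -/
def phC (a : Key) (e : ℂ) (κ : Key) : ℂ :=
  if κ = a then e else if κ = flKey a then star e else 1

/-- The exchange of the pair of `a`. -/
def flG (a : Key) (κ : Key) : Key := if κ = a then flKey a else if κ = flKey a then a else κ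

/-- The sign of the exchange. -/
def flC (a : Key) (κ : Key) : ℂ := if κ = flKey a then -1 else 1

/-- Signs on two classes. -/
def sgC (a b : Key) (κ : Key) : ℂ :=
  if κ = a ∨ κ = flKey a ∨ κ = b ∨ κ = flKey b then -1 else 1

variable {k : Fin 3} {t : Lbl} {p : bandBlocks k}

theorem rightOK_phase (hp : (t (k + 1), t (k + 2)) ≠ p.1) (h1 : p.1.1 ≠ 0) (h2 : p.1.2 ≠ 0)
    (w : BlkIdx p.1) (hw : blkFlip p.1 w ≠ w) :
    RightOK t (act k p.1 id) (actCoef k p.1 (phC (bkey w) Complex.I)) := by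
  have key : ∀ φ : ℝ, ∀ e : ℂ, Complex.exp (Complex.I * φ) = e →
      Complex.exp (-(Complex.I * φ)) = star e →
      ∃ X : BlkAlg (bandBlocks k), IsTangent X ∧ BlkSpec p (exp X) id (phC (bkey w) e) := by
    intro φ e e1 e2
    obtain ⟨X, hX, hoff, r1, r2, r3⟩ := phase_target p h1 h2 w hw φ
    refine ⟨X, hX, hoff, fun u => ⟨u, rfl, ?_⟩⟩
    by_cases c1 : u = w
    · subst c1; rw [r1, phC, if_pos rfl, e1]
    by_cases c2 : u = blkFlip p.1 w
    · subst c2
      rw [r2, phC, if_neg fun e => hw (bkey_injective e), if_pos (bkey_blkFlip w), e2]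
    rw [r3 u c1 c2, phC, if_neg fun e => c1 (bkey_injective e),
      if_neg fun e => c2 (bkey_injective (e.trans (bkey_blkFlip w).symm)), one_smul]
  have hI : Complex.exp (Complex.I * ((Real.pi / 2 : ℝ) : ℂ)) = Complex.I := by
    rw [mul_comm]; push_cast; exact Complex.exp_pi_div_two_mul_I
  have hI' : Complex.exp (-(Complex.I * ((Real.pi / 2 : ℝ) : ℂ))) = -Complex.I := by
    rw [Complex.exp_neg, hI, Complex.inv_I]
  obtain ⟨X, hX, h⟩ := key (Real.pi / 2) Complex.I hI (by rw [hI']; simp)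
  obtain ⟨X', hX', h'⟩ := key (-(Real.pi / 2)) (-Complex.I)
    (by rw [Complex.ofReal_neg, mul_neg, hI']) (by rw [Complex.ofReal_neg, mul_neg, neg_neg, hI]; simp)
  refine rightOK_of_blk hp hX hX' h h' (fun κ => ⟨rfl, rfl⟩) (fun κ _ => ⟨rfl, rfl⟩)
    (fun κ _ => ⟨rfl, rfl, ?_⟩) (fun κ => ?_)
  · simp only [phC, id_eq]
    split_ifs <;> simp
  · simp only [phC]
    constructor <;> split_ifs <;> simp

theorem rightOK_flip (hp : (t (k + 1), t (k + 2)) ≠ p.1) (h1 : p.1.1 ≠ 0) (h2 : p.1.2 ≠ 0)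
    (w : BlkIdx p.1) (hw : blkFlip p.1 w ≠ w) :
    RightOK t (act k p.1 (flG (bkey w))) (actCoef k p.1 (flC (bkey w))) := by
  have key : ∀ w : BlkIdx p.1, blkFlip p.1 w ≠ w → ∃ X : BlkAlg (bandBlocks k), IsTangent X ∧
      BlkSpec p (exp X) (flG (bkey w)) (flC (bkey w)) := by
    intro w hw
    obtain ⟨X, hX, hoff, r1, r2, r3⟩ := flip_target p h1 h2 w hw
    refine ⟨X, hX, hoff, fun u => ?_⟩
    simp only [flG, flC]
    by_cases c1 : u = w
    · subst c1
      refine ⟨blkFlip p.1 u, by rw [if_pos rfl, bkey_blkFlip], ?_⟩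
      rw [r1, if_neg fun e => hw (bkey_injective ((bkey_blkFlip u).trans e.symm)), one_smul]
    by_cases c2 : u = blkFlip p.1 w
    · subst c2
      refine ⟨w, by rw [if_neg fun e => c1 (bkey_injective e), if_pos (bkey_blkFlip w)], ?_⟩
      rw [r2, if_pos (bkey_blkFlip w), neg_one_smul]
    have d1 : bkey u ≠ bkey w := fun e => c1 (bkey_injective e)
    have d2 : bkey u ≠ flKey (bkey w) := fun e => c2 (bkey_injective (e.trans (bkey_blkFlip w).symm))
    exact ⟨u, by rw [if_neg d1, if_neg d2], by rw [r3 u c1 c2, if_neg d2, one_smul]⟩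
  have hw' : blkFlip p.1 (blkFlip p.1 w) ≠ blkFlip p.1 w := by
    rw [blkFlip_flip]; exact Ne.symm hw
  obtain ⟨X, hX, h⟩ := key w hw
  obtain ⟨X', hX', h'⟩ := key _ hw'
  rw [bkey_blkFlip] at h'
  set a := bkey w
  have ha : a.2 ≤ a.1 := bkey_le w
  have hne : flKey a ≠ a := fun e => hw (bkey_injective ((bkey_blkFlip w).trans e))
  refine rightOK_of_blk hp hX hX' h h' (fun κ => ?_) (fun κ _ => ?_) (fun κ _ => ?_) (fun κ => ?_)
  · constructor <;> unfold flG <;> split_ifs with e e' <;>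
      first | rfl | (rw [e]; rfl) | (rw [e']; rfl)
  · have hu := unsIdx_flKey ha
    have hf : (flKey a).1 = a.1 := rfl
    constructor <;> simp only [flG, flKey_flKey ha] <;> split_ifs with e e' <;>
      first | rfl | (rw [e, hf]; exact hu.symm) | (rw [e]; exact hu) | (rw [e']; exact hu) |
        (rw [e', hf]; exact hu.symm)
  · refine ⟨?_, ?_, ?_⟩ <;>
      simp only [flG, flC, flKey_flKey ha] <;> by_cases e : κ = a <;>
      by_cases e' : κ = flKey a <;> simp_all [Ne.symm hne]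
  · simp only [flC]
    constructor <;> split_ifs <;> simp

theorem rightOK_sign (hp : (t (k + 1), t (k + 2)) ≠ p.1) (h1 : p.1.1 ≠ 0) (h2 : p.1.2 ≠ 0)
    (w v : BlkIdx p.1) (hv : v ≠ w) (hv' : v ≠ blkFlip p.1 w) :
    RightOK t (act k p.1 id) (actCoef k p.1 (sgC (bkey w) (bkey v))) := by
  obtain ⟨X, hX, hoff, r1, r2, r3⟩ := sign_target p h1 h2 w v hv hv'
  have hreal : IsRealBlk p.1 (exp X p) := (exp_isTarget hX p).1
  have r1' := real_mulVec hreal (r := -1) (by rw [r1, neg_one_smul])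
  have r2' := real_mulVec hreal (r := -1) (by rw [r2, neg_one_smul])
  have h : BlkSpec p (exp X) id (sgC (bkey w) (bkey v)) := by
    refine ⟨hoff, fun u => ⟨u, rfl, ?_⟩⟩
    rw [sgC]
    simp only [← bkey_blkFlip, bkey_injective.eq_iff]
    by_cases c1 : u = w
    · subst c1; simp [r1]
    by_cases c2 : u = blkFlip p.1 w
    · subst c2; rw [r1']; simp [flipSgn_sq]
    by_cases c3 : u = v
    · subst c3; simp [r2]
    by_cases c4 : u = blkFlip p.1 v
    · subst c4; rw [r2']; simp [flipSgn_sq]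
    simp [r3 u c1 c2 c3 c4, c1, c2, c3, c4]
  refine rightOK_of_blk hp hX hX h h (fun κ => ⟨rfl, rfl⟩) (fun κ _ => ⟨rfl, rfl⟩)
    (fun κ _ => ⟨rfl, rfl, ?_⟩) (fun κ => ?_)
  · simp only [sgC, id_eq]
    split_ifs <;> simp
  · simp only [sgC]
    constructor <;> split_ifs <;> simp

end Vale.Agent.P225
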