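import Vale.Agent.P225.Plan.Span.Closure

/-!
P225, module D: single orbits in the span of the moved slots.
-/

noncomputable section

namespace Vale.Agent.P225

open Matrix SU2 NormedSpace
open scoped ComplexOrder Matrix.Norms.L2Operator

attribute [local irreducible] band

theorem crdKey_thCrd (k : Fin 3) (c : Crd) : crdKey k (thCrd c) = flKey (crdKey k c) := rfl

theorem crd_eq_iff_keys {G k j : Fin 3} (hG : ∀ i, i = G ∨ i = k ∨ i = j) {c d : Crd} :
    c = d ↔ crdKey G c = crdKey G d ∧ crdKey k c = crdKey k d ∧ crdKey j c = crdKey j d := by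
  refine ⟨fun e => by subst e; exact ⟨rfl, rfl, rfl⟩, fun ⟨a, b, e⟩ => crd_ext a fun i _ => ?_⟩
  rcases hG i with rfl | rfl | rfl
  · exact ⟨congrArg Prod.fst a, congrArg Prod.snd a⟩
  · exact ⟨congrArg Prod.fst b, congrArg Prod.snd b⟩
  · exact ⟨congrArg Prod.fst e, congrArg Prod.snd e⟩

theorem forall_spect {G k j : Fin 3} (hG : ∀ i, i = G ∨ i = k ∨ i = j) (hk : k ≠ G) (hj : j ≠ G)
    (P : Fin 3 → Prop) : (∀ i, i ≠ G → P i) ↔ P k ∧ P j := by
  refine ⟨fun h => ⟨h k hk, h j hj⟩, fun h i hi => ?_⟩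
  rcases hG i with rfl | rfl | rfl
  · exact absurd rfl hi
  · exact h.1
  · exact h.2

theorem flKey_even {k : Key} (h : k.1 % 2 = 0) : flKey k = k := by
  refine Prod.ext rfl ?_
  simp [flKey, h]

theorem flKey_odd {k : Key} (h : k.1 % 2 = 1) : flKey k ≠ k := by
  intro e
  have e2 : k.1 - k.2 = k.2 := by simpa [flKey, h] using congrArg Prod.snd e
  omega

/-- The slot restricted to the classes of `x` in the spectators. -/
def boxMat (G : Fin 3) (x y : BPt) (z : ℂ) : Matrix BPt BPt ℂ :=
  Matrix.of fun a b =>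
    if ∀ i, i ≠ G → crdKey i (bcrd a) = crdKey i (bcrd b) ∧
        (crdKey i (bcrd b) = crdKey i (bcrd x) ∨ crdKey i (bcrd b) = flKey (crdKey i (bcrd x)))
    then slotEnt (crdKey G (bcrd x)) (crdKey G (bcrd y)) z (crdKey G (bcrd a)) (crdKey G (bcrd b))
    else 0

/-- Two points with equal spectators, the second one on the higher level. -/
structure Pair0 (G : Fin 3) (x y : BPt) : Prop where
  move : Move G (lab x.1.out) (lab y.1.out)
  keys : ∀ i, i ≠ G → crdKey i (bcrd y) = crdKey i (bcrd x)
  pos1 : 1 ≤ lab x.1.out (G + 1)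
  pos2 : 1 ≤ lab x.1.out (G + 2)
  posG : 1 ≤ lab y.1.out G

theorem Pair0.spect {G : Fin 3} {x y : BPt} (h : Pair0 G x y) {k : Fin 3} (hk : k ≠ G) :
    Spect (lab x.1.out) (lab y.1.out) k := by
  obtain ⟨a, b, c⟩ : 1 ≤ lab y.1.out (G + 1) ∧ 1 ≤ lab y.1.out (G + 2) ∧
      (G = k + 1 ∨ G = k + 2) := by
    obtain ⟨o1, o2⟩ := fin3_succ_ne G
    refine ⟨by rw [h.move.1 _ o1]; exact h.pos1, by rw [h.move.1 _ o2]; exact h.pos2, ?_⟩
    revert hk; fin_cases G <;> fin_cases k <;> decide
  have hy : ∀ i, lab y.1.out i ≠ 0 := fun i => by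
    rcases fin3_trichotomy G i with rfl | rfl | rfl
    · exact Nat.one_le_iff_ne_zero.1 h.posG
    · exact Nat.one_le_iff_ne_zero.1 a
    · exact Nat.one_le_iff_ne_zero.1 b
  refine ⟨y.2, fun e => h.move.2 ?_, hy _, hy _⟩
  rcases c with c | c <;> rw [c]
  · exact (congrArg Prod.fst e).symm
  · exact (congrArg Prod.snd e).symm

theorem box_mem {G : Fin 3} {x y : BPt} (h : Pair0 G x y) (z : ℂ) :
    boxMat G x y z ∈ movedSpan (lab x.1.out) (lab y.1.out) := by
  obtain ⟨s, hs, hE⟩ := exists_slot h.move h.pos1 h.pos2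
  have hsup := slotE_support (G := G) h.move.1 (a := crdKey G (bcrd x))
    (b := crdKey G (bcrd y)) rfl rfl
  obtain ⟨o1, o2⟩ := fin3_succ_ne G
  have hu : ∀ i, i ≠ G → (crdKey i (bcrd x)).1 = lab y.1.out i := fun i hi =>
    (congrArg Prod.fst (h.keys i hi)).symm
  have hle : ∀ i, (crdKey i (bcrd x)).2 ≤ (crdKey i (bcrd x)).1 := fun i => (bcrd_valid x).2 i
  have := sel_mem (h.spect o2) (hu _ o2) (hle _)
    (sel_mem (h.spect o1) (hu _ o1) (hle _) (slot_mem hs hE hsup z))
  refine cast (congrArg (· ∈ movedSpan (lab x.1.out) (lab y.1.out)) ?_) this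
  ext a b
  simp only [Matrix.of_apply, slotE_apply, boxMat, ← ite_and]
  refine if_congr ⟨fun ⟨e2, e1, e⟩ i hi => ?_, fun e => ?_⟩ rfl rfl
  · refine ⟨(e i hi).1, ?_⟩
    rcases fin3_trichotomy G i with rfl | rfl | rfl
    · exact absurd rfl hi
    · exact e1
    · exact e2
  · refine ⟨(e _ o2).2, (e _ o1).2, fun i hi => ⟨(e i hi).1, ?_⟩⟩
    have e' : (crdKey i (bcrd b)).1 = (crdKey i (bcrd x)).1 := by
      rcases (e i hi).2 with e' | e' <;> rw [e'] <;> rfl
    exact (congrArg Prod.fst (e i hi).1).trans e'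

theorem thSgn_mul_eq {G : Fin 3} {x y : BPt} (h : Pair0 G x y) :
    thSgn (bcrd x) * thSgn (bcrd y) = keySgn (crdKey G (bcrd x)) * keySgn (crdKey G (bcrd y)) := by
  unfold thSgn
  rw [← Finset.prod_mul_distrib, Finset.prod_eq_single G]
  · rfl
  · intro i _ hi
    show keySgn (crdKey i (bcrd x)) * keySgn (crdKey i (bcrd y)) = 1
    rw [h.keys i hi, keySgn_sq]
  · simp

theorem orb_keys {G k j : Fin 3} (hG : ∀ i, i = G ∨ i = k ∨ i = j) (hk : k ≠ G) (hj : j ≠ G)
    {x y : BPt} (h : Pair0 G x y) (z : ℂ) (a b : BPt) :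
    orb x y z a b =
      (if (crdKey G (bcrd a) = crdKey G (bcrd x) ∧ crdKey k (bcrd a) = crdKey k (bcrd x) ∧
          crdKey j (bcrd a) = crdKey j (bcrd x)) ∧
        (crdKey G (bcrd b) = crdKey G (bcrd y) ∧ crdKey k (bcrd b) = crdKey k (bcrd x) ∧
          crdKey j (bcrd b) = crdKey j (bcrd x)) then z else 0) +
      if (crdKey G (bcrd a) = flKey (crdKey G (bcrd x)) ∧
          crdKey k (bcrd a) = flKey (crdKey k (bcrd x)) ∧
          crdKey j (bcrd a) = flKey (crdKey j (bcrd x))) ∧
        (crdKey G (bcrd b) = flKey (crdKey G (bcrd y)) ∧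
          crdKey k (bcrd b) = flKey (crdKey k (bcrd x)) ∧
          crdKey j (bcrd b) = flKey (crdKey j (bcrd x))) then
        star z * (keySgn (crdKey G (bcrd x)) * keySgn (crdKey G (bcrd y))) else 0 := by
  rw [orb_apply, thSgn_mul_eq h]
  simp only [crd_eq_iff_keys hG, crdKey_thCrd, h.keys k hk, h.keys j hj]

theorem pair_iff {A B X X' : Key} : A = B ∧ (B = X ∨ B = X') ↔
    (A = X ∧ B = X) ∨ (A = X' ∧ B = X') := by
  constructor
  · rintro ⟨rfl, h | h⟩
    · exact .inl ⟨h, h⟩
    · exact .inr ⟨h, h⟩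
  · rintro (⟨rfl, h⟩ | ⟨rfl, h⟩)
    · exact ⟨h.symm, .inl h⟩
    · exact ⟨h.symm, .inr h⟩

theorem trans_iff {A B X : Key} : A = B ∧ B = X ↔ A = X ∧ B = X :=
  ⟨fun ⟨e, h⟩ => ⟨e.trans h, h⟩, fun ⟨e, h⟩ => ⟨e.trans h.symm, h⟩⟩

theorem odd_scalar {r r' q q' c : Prop} [Decidable r] [Decidable r'] [Decidable q] [Decidable q']
    [Decidable c] (hr : r → ¬r') (hq : q → ¬q') {φ : ℂ} (hφ : r → φ = Complex.I)
    (hφ' : r' → φ = -Complex.I) (z w : ℂ) :
    ((1 / 2 : ℝ) : ℂ) *
      ((if (r ∨ r') ∧ c then (if q then z else 0) + (if q' then star z * w else 0) else 0) -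
      (if (r ∨ r') ∧ c then
        (if q then Complex.I * z else 0) + (if q' then star (Complex.I * z) * w else 0) else 0) * φ) =
    (if q ∧ r ∧ c then z else 0) + (if q' ∧ r' ∧ c then star z * w else 0) := by
  have hI : Complex.I * Complex.I = -1 := Complex.I_mul_I
  have hs : star (Complex.I * z) = -(Complex.I * star z) := by simp
  rw [hs]
  by_cases hc : c
  · by_cases h1 : r
    · rw [hφ h1]
      simp only [hc, h1, hr h1, true_or, and_true, and_false, if_true, if_false]
      push_cast
      split_ifs with a b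
      · exact absurd b (hq a)
      · linear_combination -(z / 2) * hI
      · linear_combination (star z * w / 2) * hI
      · ring
    · by_cases h2 : r'
      · rw [hφ' h2]
        simp only [hc, h1, h2, or_true, and_true, and_false, true_and, false_and, if_true, if_false]
        push_cast
        split_ifs with a b
        · exact absurd b (hq a)
        · linear_combination (z / 2) * hI
        · linear_combination -(star z * w / 2) * hI
        · ring
      · simp [h1, h2]
  · simp [hc]

theorem two_scalar {r r' s s' q : Prop} [Decidable r] [Decidable r'] [Decidable s] [Decidable s']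
    [Decidable q] (hr : r → ¬r') (hs : s → ¬s') {φ ψ : ℂ} (hφ : r → φ = Complex.I)
    (hφ' : r' → φ = -Complex.I) (hψ : s → ψ = Complex.I) (hψ' : s' → ψ = -Complex.I) (z : ℂ) :
    (z.re : ℂ) * (((1 / 2 : ℝ) : ℂ) * ((if (r ∨ r') ∧ (s ∨ s') then if q then (1 : ℂ) else 0 else 0) -
        (if (r ∨ r') ∧ (s ∨ s') then if q then (1 : ℂ) else 0 else 0) * φ * ψ)) +
      (z.im : ℂ) * (((1 / 2 : ℝ) : ℂ) *
        ((if (r ∨ r') ∧ (s ∨ s') then if q then (1 : ℂ) else 0 else 0) -
          (if (r ∨ r') ∧ (s ∨ s') then if q then (1 : ℂ) else 0 else 0) * φ * ψ) * φ) =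
    (if q ∧ r ∧ s then z else 0) + (if q ∧ r' ∧ s' then star z * (1 * 1) else 0) := by
  have hI : Complex.I * Complex.I = -1 := Complex.I_mul_I
  have hz := Complex.re_add_im z
  have hz' : star z = (z.re : ℂ) - (z.im : ℂ) * Complex.I := by
    apply Complex.ext <;> simp
  by_cases hq : q
  · by_cases h1 : r
    · rw [hφ h1]
      by_cases h3 : s
      · rw [hψ h3]
        simp only [hq, h1, h3, hr h1, true_or, and_true, and_false, true_and, false_and, if_true, if_false]
        push_cast
        linear_combination (-((z.re : ℂ) / 2) - (z.im : ℂ) / 2 * Complex.I) * hI + hz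
      · by_cases h4 : s'
        · rw [hψ' h4]
          simp only [hq, h1, h3, h4, hr h1, true_or, or_true, and_true, and_false, true_and, false_and, if_true, if_false]
          push_cast
          linear_combination ((z.re : ℂ) / 2 + (z.im : ℂ) / 2 * Complex.I) * hI
        · simp [h3, h4]
    · by_cases h2 : r'
      · rw [hφ' h2]
        by_cases h3 : s
        · rw [hψ h3]
          simp only [hq, h1, h2, h3, hs h3, or_true, true_or, and_true, and_false, true_and, false_and, if_true,
            if_false]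
          push_cast
          linear_combination ((z.re : ℂ) / 2 - (z.im : ℂ) / 2 * Complex.I) * hI
        · by_cases h4 : s'
          · rw [hψ' h4]
            simp only [hq, h1, h2, h3, h4, or_true, and_true, and_false, true_and, false_and, if_true, if_false]
            push_cast
            linear_combination (-((z.re : ℂ) / 2) + (z.im : ℂ) / 2 * Complex.I) * hI - hz'
          · simp [h3, h4]
      · simp [h1, h2]
  · simp [hq]

/-- Orbits of entries with equal spectators. -/
theorem orb0_mem {G : Fin 3} {x y : BPt} (h : Pair0 G x y) (z : ℂ) :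
    orb x y z ∈ movedSpan (lab x.1.out) (lab y.1.out) := by
  set t := lab x.1.out with ht
  set u := lab y.1.out with hu
  have hpar : u G % 2 = t G % 2 := by
    have := (move_facts x.2 y.2 h.move).2.2.1
    have := congrFun this G
    simp only [parity] at this
    rcases Nat.mod_two_eq_zero_or_one (t G) with e | e <;>
      rcases Nat.mod_two_eq_zero_or_one (u G) with e' | e' <;>
      simp [e, e', ← ht, ← hu] at this ⊢
  have hsum := Nat.even_iff.1 (band_ok x.2).1
  have hku : ∀ i, i ≠ G → u i = t i := h.move.1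
  obtain ⟨o1, o2⟩ := fin3_succ_ne G
  by_cases hGo : t G % 2 = 1
  · -- one odd spectator
    obtain ⟨k, j, hk, hj, hG, hko, hje⟩ : ∃ k j, k ≠ G ∧ j ≠ G ∧ (∀ i, i = G ∨ i = k ∨ i = j) ∧
        t k % 2 = 1 ∧ t j % 2 = 0 := by
      by_cases e : t (G + 1) % 2 = 1
      · refine ⟨G + 1, G + 2, o1, o2, fin3_trichotomy G, e, ?_⟩
        fin_cases G <;> simp [t] at * <;> omega
      · refine ⟨G + 2, G + 1, o2, o1, fun i => (fin3_trichotomy G i).imp id Or.symm, ?_, by omega⟩
        fin_cases G <;> simp [t] at * <;> omega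
    have hmem := Submodule.smul_mem _ (1 / 2 : ℝ) (sub_mem (box_mem h z)
      (phase_mem (h.spect hk) (y0 := y) rfl (by rw [← hu, hku k hk]; exact hko)
        (box_mem h (Complex.I * z))))
    refine cast (congrArg (· ∈ movedSpan t u) ?_) hmem
    ext a b
    rw [orb_keys hG hk hj h]
    simp only [Matrix.smul_apply, Matrix.sub_apply, Matrix.of_apply, boxMat, slotEnt,
      if_neg (show ¬(crdKey G (bcrd x)).1 % 2 = 0 by show ¬t G % 2 = 0; omega),
      forall_spect hG hk hj, flKey_even (show (crdKey j (bcrd x)).1 % 2 = 0 from hje),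
      or_self, h.keys k hk, Complex.real_smul, star_mul', phC]
    have hne : flKey (crdKey k (bcrd x)) ≠ crdKey k (bcrd x) := flKey_odd hko
    have hneG : flKey (crdKey G (bcrd x)) ≠ crdKey G (bcrd x) := flKey_odd hGo
    refine (congrArg _ ?_).trans ((odd_scalar
      (r := crdKey k (bcrd a) = crdKey k (bcrd x) ∧ crdKey k (bcrd b) = crdKey k (bcrd x))
      (r' := crdKey k (bcrd a) = flKey (crdKey k (bcrd x)) ∧
        crdKey k (bcrd b) = flKey (crdKey k (bcrd x)))
      (q := crdKey G (bcrd a) = crdKey G (bcrd x) ∧ crdKey G (bcrd b) = crdKey G (bcrd y))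
      (q' := crdKey G (bcrd a) = flKey (crdKey G (bcrd x)) ∧
        crdKey G (bcrd b) = flKey (crdKey G (bcrd y)))
      (c := crdKey j (bcrd a) = crdKey j (bcrd x) ∧ crdKey j (bcrd b) = crdKey j (bcrd x))
      (fun e e' => hne (e'.2.symm.trans e.2)) (fun e e' => hneG (e'.1.symm.trans e.1))
      (φ := if crdKey k (bcrd b) = crdKey k (bcrd x) then Complex.I
        else if crdKey k (bcrd b) = flKey (crdKey k (bcrd x)) then star Complex.I else 1)
      (fun e => if_pos e.2)
      (fun e => by rw [if_neg (e.2 ▸ hne), if_pos e.2]; exact Complex.conj_I)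
      z (keySgn (crdKey G (bcrd x)) * keySgn (crdKey G (bcrd y)))).trans ?_)
    · simp only [pair_iff, trans_iff, star_mul']
    · simp only [and_assoc, and_left_comm, and_comm]
  · have hGe : t G % 2 = 0 := by omega
    by_cases e : t (G + 1) % 2 = 1
    · -- two odd spectators
      have e' : t (G + 2) % 2 = 1 := by fin_cases G <;> simp [t] at * <;> omega
      have hG := fin3_trichotomy G
      have hb := box_mem h 1
      have hPP := phase_mem (h.spect o2) (y0 := y) rfl (by rw [← hu, hku _ o2]; exact e')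
        (phase_mem (h.spect o1) (y0 := y) rfl (by rw [← hu, hku _ o1]; exact e) hb)
      have hA := Submodule.smul_mem _ (1 / 2 : ℝ) (sub_mem hb hPP)
      have hmem := add_mem (Submodule.smul_mem _ z.re hA) (Submodule.smul_mem _ z.im
        (phase_mem (h.spect o1) (y0 := y) rfl (by rw [← hu, hku _ o1]; exact e) hA))
      refine cast (congrArg (· ∈ movedSpan t u) ?_) hmem
      ext a b
      rw [orb_keys hG o1 o2 h]
      simp only [Matrix.smul_apply, Matrix.add_apply, Matrix.sub_apply, Matrix.of_apply, boxMat,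
        slotEnt, if_pos (show (crdKey G (bcrd x)).1 % 2 = 0 from hGe),
        forall_spect hG o1 o2, flKey_even (show (crdKey G (bcrd x)).1 % 2 = 0 from hGe),
        flKey_even (show (crdKey G (bcrd y)).1 % 2 = 0 from hpar.trans hGe),
        keySgn, if_neg (show ¬(crdKey G (bcrd x)).1 % 2 = 1 by show ¬t G % 2 = 1; omega),
        if_neg (show ¬(crdKey G (bcrd y)).1 % 2 = 1 by show ¬u G % 2 = 1; omega),
        h.keys _ o1, h.keys _ o2, Complex.real_smul, phC, Complex.one_re, Complex.ofReal_one]
      have hne : flKey (crdKey (G + 1) (bcrd x)) ≠ crdKey (G + 1) (bcrd x) := flKey_odd e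
      have hne' : flKey (crdKey (G + 2) (bcrd x)) ≠ crdKey (G + 2) (bcrd x) := flKey_odd e'
      refine Eq.trans ?_ ((two_scalar
        (r := crdKey (G + 1) (bcrd a) = crdKey (G + 1) (bcrd x) ∧
          crdKey (G + 1) (bcrd b) = crdKey (G + 1) (bcrd x))
        (r' := crdKey (G + 1) (bcrd a) = flKey (crdKey (G + 1) (bcrd x)) ∧
          crdKey (G + 1) (bcrd b) = flKey (crdKey (G + 1) (bcrd x)))
        (s := crdKey (G + 2) (bcrd a) = crdKey (G + 2) (bcrd x) ∧
          crdKey (G + 2) (bcrd b) = crdKey (G + 2) (bcrd x))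
        (s' := crdKey (G + 2) (bcrd a) = flKey (crdKey (G + 2) (bcrd x)) ∧
          crdKey (G + 2) (bcrd b) = flKey (crdKey (G + 2) (bcrd x)))
        (q := crdKey G (bcrd a) = crdKey G (bcrd x) ∧ crdKey G (bcrd b) = crdKey G (bcrd y))
        (φ := if crdKey (G + 1) (bcrd b) = crdKey (G + 1) (bcrd x) then Complex.I
          else if crdKey (G + 1) (bcrd b) = flKey (crdKey (G + 1) (bcrd x)) then star Complex.I
          else 1)
        (ψ := if crdKey (G + 2) (bcrd b) = crdKey (G + 2) (bcrd x) then Complex.I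
          else if crdKey (G + 2) (bcrd b) = flKey (crdKey (G + 2) (bcrd x)) then star Complex.I
          else 1)
        (fun u v => hne (v.2.symm.trans u.2)) (fun u v => hne' (v.2.symm.trans u.2))
        (fun u => if_pos u.2) (fun u => by rw [if_neg (u.2 ▸ hne), if_pos u.2]; exact Complex.conj_I)
        (fun u => if_pos u.2) (fun u => by rw [if_neg (u.2 ▸ hne'), if_pos u.2]; exact Complex.conj_I)
        z).trans ?_)
      · simp only [pair_iff]
      · simp only [and_assoc, and_left_comm, and_comm]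
    · -- no odd spectator
      have e1 : t (G + 1) % 2 = 0 := by omega
      have e2 : t (G + 2) % 2 = 0 := by fin_cases G <;> simp [t] at * <;> omega
      refine cast (congrArg (· ∈ movedSpan t u) ?_)
        (Submodule.smul_mem _ (2 : ℝ) (box_mem h z))
      ext a b
      rw [orb_keys (fin3_trichotomy G) o1 o2 h]
      simp only [Matrix.smul_apply, Matrix.of_apply, boxMat, slotEnt,
        if_pos (show (crdKey G (bcrd x)).1 % 2 = 0 from hGe),
        forall_spect (fin3_trichotomy G) o1 o2, or_self,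
        flKey_even (show (crdKey (G + 1) (bcrd x)).1 % 2 = 0 from e1),
        flKey_even (show (crdKey (G + 2) (bcrd x)).1 % 2 = 0 from e2),
        flKey_even (show (crdKey G (bcrd x)).1 % 2 = 0 from hGe),
        flKey_even (show (crdKey G (bcrd y)).1 % 2 = 0 from hpar.trans hGe),
        keySgn, if_neg (show ¬(crdKey G (bcrd x)).1 % 2 = 1 by show ¬t G % 2 = 1; omega),
        if_neg (show ¬(crdKey G (bcrd y)).1 % 2 = 1 by show ¬u G % 2 = 1; omega),
        Complex.real_smul]
      split_ifs <;> simp_all [Complex.ext_iff] <;> ring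

end Vale.Agent.P225
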