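import Vale.Agent.P225.Plan.Span.Theta

/-!
P225, module D: pairs of inverse stages that permute inside classes and do not move the rows of one
label.
-/

noncomputable section

namespace Vale.Agent.P225

open Matrix SU2 NormedSpace
open scoped ComplexOrder Matrix.Norms.L2Operator

attribute [local irreducible] band

theorem monoBand_congr {f f' : Crd → Crd} {c c' : Crd → ℂ}
    (h : ∀ z : Crd, z.Valid → f z = f' z ∧ c z = c' z) : monoBand f c = monoBand f' c' := by
  ext x y
  obtain ⟨e1, e2⟩ := h _ (bcrd_valid y)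
  simp only [monoBand, e1, e2]

theorem stageProd_append (l l' : List StageSpec) :
    stageProd (l ++ l') = stageProd l * stageProd l' := by
  simp [stageProd]

theorem stageProd_single (s : StageSpec) : stageProd [s] = s.bandMat 0 := by
  simp [stageProd]

/-- `f`, `c` is realised by stages permuting inside classes, with an inverse not moving the rows of
label `t`. -/
def RightOK (t : Lbl) (f : Crd → Crd) (c : Crd → ℂ) : Prop :=
  ∃ l l' : List StageSpec, (∀ s ∈ l, ClsStage s) ∧ (∀ s ∈ l', ClsStage s) ∧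
    stageProd l * stageProd l' = 1 ∧ stageProd l' = monoBand f c ∧
    ∀ M : Matrix BPt BPt ℂ, (∀ x y, M x y ≠ 0 → lab x.1.out = t) → stageProd l * M = M

/-- Two inverse monomial elements of one block, keeping labels and classes, give a right move. -/
theorem rightOK_of_blk {k : Fin 3} {t : Lbl} {p : bandBlocks k} (hp : (t (k + 1), t (k + 2)) ≠ p.1)
    {X X' : BlkAlg (bandBlocks k)} (hX : IsTangent X) (hX' : IsTangent X') {g g' : Key → Key}
    {c c' : Key → ℂ} (h : BlkSpec p (exp X) g c) (h' : BlkSpec p (exp X') g' c')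
    (hl : ∀ κ, (g κ).1 = κ.1 ∧ (g' κ).1 = κ.1)
    (hu : ∀ κ : Key, κ.2 ≤ κ.1 → unsIdx κ.1 (g κ).2 = unsIdx κ.1 κ.2 ∧
      unsIdx κ.1 (g' κ).2 = unsIdx κ.1 κ.2)
    (hinv : ∀ κ : Key, κ.2 ≤ κ.1 → g' (g κ) = κ ∧ g (g' κ) = κ ∧ c' (g κ) * c κ = 1)
    (hunit : ∀ κ, star (c κ) * c κ = 1 ∧ star (c' κ) * c' κ = 1) :
    RightOK t (act k p.1 g) (actCoef k p.1 c) := by
  have hband : ∀ g : Key → Key, (∀ κ, (g κ).1 = κ.1) → ∀ u : Lbl,
      (u (k + 1), u (k + 2)) = p.1 → ∀ i : ℕ,
      (Function.update u k (g (u k, i)).1 ∈ band ↔ u ∈ band) := fun g hg u _ i => by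
    rw [hg, Function.update_eq_self]
  have m := monoStage_of_blk hX h (fun w w' e => bkey_injective (by
      rw [← (hinv _ (bkey_le w)).1, e, (hinv _ (bkey_le w')).1]))
    (fun w => (hunit _).1) (hband g fun κ => (hl κ).1)
  have m' := monoStage_of_blk hX' h' (fun w w' e => bkey_injective (by
      rw [← (hinv _ (bkey_le w)).2.1, e, (hinv _ (bkey_le w')).2.1]))
    (fun w => (hunit _).2) (hband g' fun κ => (hl κ).2)
  have hcls : ∀ g : Key → Key, (∀ κ, (g κ).1 = κ.1) →
      (∀ κ : Key, κ.2 ≤ κ.1 → unsIdx κ.1 (g κ).2 = unsIdx κ.1 κ.2) →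
      ∀ z : Crd, z.Valid → cls (act k p.1 g z) = cls z := by
    intro g g1 g2 z hz
    unfold act
    split_ifs
    · refine Prod.ext ?_ (funext fun j => ?_)
      · show Function.update z.1 k (g (crdKey k z)).1 = z.1
        rw [g1]; exact Function.update_eq_self k z.1
      · by_cases hj : j = k
        · subst hj
          simp only [cls, Function.update_self, g1]
          exact g2 (crdKey j z) (hz.2 j)
        · simp [cls, hj]
    · rfl
  refine ⟨[⟨k, X', 0⟩], [⟨k, X, 0⟩],
    fun s hs => by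
      rw [List.mem_singleton.1 hs]
      exact ⟨_, _, m', hcls g' (fun κ => (hl κ).2) fun κ hκ => (hu κ hκ).2⟩,
    fun s hs => by
      rw [List.mem_singleton.1 hs]
      exact ⟨_, _, m, hcls g (fun κ => (hl κ).1) fun κ hκ => (hu κ hκ).1⟩,
    ?_, by rw [stageProd_single, m.mat], fun M hM => ?_⟩
  · rw [stageProd_single, stageProd_single, m.mat, m'.mat, monoBand_mul m.perm, ← monoBand_id]
    refine monoBand_congr fun z hz => ?_
    obtain ⟨o1, o2⟩ := fin3_succ_ne k
    by_cases hb : (z.1 (k + 1), z.1 (k + 2)) = p.1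
    · obtain ⟨e1, e2, e3⟩ := hinv (crdKey k z) (hz.2 k)
      have hk : crdKey k (act k p.1 g z) = g (crdKey k z) := by simp [act, if_pos hb, crdKey]
      have hb' : ((act k p.1 g z).1 (k + 1), (act k p.1 g z).1 (k + 2)) = p.1 := by
        rw [(act_other k p.1 g z o1).1, (act_other k p.1 g z o2).1]; exact hb
      refine ⟨crd_ext (G := k) ?_ fun j hj => ?_, ?_⟩
      · show crdKey k (act k p.1 g' (act k p.1 g z)) = crdKey k z
        rw [act, if_pos hb', hk, e1]
        simp [crdKey]
      · obtain ⟨a, b⟩ := act_other k p.1 g' (act k p.1 g z) hj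
        obtain ⟨a', b'⟩ := act_other k p.1 g z hj
        exact ⟨a.trans a', b.trans b'⟩
      · rw [actCoef, if_pos hb', hk, actCoef, if_pos hb]
        exact e3
    · simp [act, actCoef, hb]
  · rw [stageProd_single, m'.mat]
    ext x y
    have hfix : ∀ z : BPt, lab z.1.out = t →
        act k p.1 g' (bcrd z) = bcrd z ∧ actCoef k p.1 c' (bcrd z) = 1 := fun z hz => by
      have hb : ((bcrd z).1 (k + 1), (bcrd z).1 (k + 2)) ≠ p.1 := by
        rw [show (bcrd z).1 = t from hz]; exact hp
      exact ⟨by rw [act, if_neg hb], by rw [actCoef, if_neg hb]⟩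
    rw [Matrix.mul_apply, Finset.sum_eq_single x ?_ (by simp)]
    · by_cases hx : M x y = 0
      · simp [hx]
      · obtain ⟨e1, e2⟩ := hfix x (hM x y hx)
        simp [monoBand, e1, e2]
    · intro z _ hz
      by_cases hx : M z y = 0
      · simp [hx]
      · obtain ⟨e1, -⟩ := hfix z (hM z y hx)
        simp [monoBand, e1, bcrd_injective.eq_iff, Ne.symm hz]

/-- The entry of a right move. -/
theorem mul_act_apply {k : Fin 3} {p : ℕ × ℕ} {g : Key → Key} {c : Key → ℂ}
    (M : Matrix BPt BPt ℂ) (x y y' : BPt) (h : bcrd y' = act k p g (bcrd y)) :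
    (M * monoBand (act k p g) (actCoef k p c)) x y = M x y' * actCoef k p c (bcrd y) :=
  mul_monoBand M x y y' h

end Vale.Agent.P225
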