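import Vale.Agent.P225.Plan.Stages

/-!
P225, module D: the real structure on band coordinates, and real matrices as sums of orbits.
-/

noncomputable section

namespace Vale.Agent.P225

open Matrix SU2 NormedSpace
open scoped ComplexOrder Matrix.Norms.L2Operator

attribute [local irreducible] band

/-- The real structure on coordinates. -/
def thCrd (c : Crd) : Crd := (c.1, fun k => (flKey (c.1 k, c.2 k)).2)

/-- The sign of the real structure at a key. -/
def keySgn (k : Key) : ℂ := if k.1 % 2 = 1 then (-1) ^ k.2 else 1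

/-- The sign of the real structure at coordinates. -/
def thSgn (c : Crd) : ℂ := ∏ k, keySgn (c.1 k, c.2 k)

theorem keySgn_sq (k : Key) : keySgn k * keySgn k = 1 := by
  unfold keySgn
  split_ifs <;> simp [← mul_pow]

theorem keySgn_star (k : Key) : star (keySgn k) = keySgn k := by
  unfold keySgn
  split_ifs <;> simp

theorem keySgn_bkey {p : ℕ × ℕ} (w : BlkIdx p) : keySgn (bkey w) = flipSgn (w.1.1 : ℕ) w.2 := rfl

theorem keySgn_flKey {k : Key} (h : k.1 % 2 = 1) (hk : k.2 ≤ k.1) :
    keySgn (flKey k) = -keySgn k := by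
  have e : (flKey k).1 % 2 = 1 := h
  unfold keySgn
  rw [if_pos e, if_pos h, flKey, if_pos h]
  simp only
  rcases Nat.even_or_odd k.2 with he | ho
  · have : Odd (k.1 - k.2) := by rw [Nat.even_iff] at he; rw [Nat.odd_iff]; omega
    rw [he.neg_one_pow, this.neg_one_pow]
  · have : Even (k.1 - k.2) := by rw [Nat.odd_iff] at ho; rw [Nat.even_iff]; omega
    rw [ho.neg_one_pow, this.neg_one_pow, neg_neg]

theorem thSgn_star (c : Crd) : star (thSgn c) = thSgn c := by
  unfold thSgn
  rw [star_prod]
  exact Finset.prod_congr rfl fun k _ => keySgn_star _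

theorem thSgn_sq (c : Crd) : thSgn c * thSgn c = 1 := by
  unfold thSgn
  rw [← Finset.prod_mul_distrib]
  exact Finset.prod_eq_one fun k _ => keySgn_sq _

theorem thCrd_thCrd {c : Crd} (h : c.Valid) : thCrd (thCrd c) = c :=
  Prod.ext rfl (funext fun k => congrArg Prod.snd (flKey_flKey (k := (c.1 k, c.2 k)) (h.2 k)))

theorem cls_thCrd {c : Crd} (h : c.Valid) : cls (thCrd c) = cls c :=
  Prod.ext rfl (funext fun k => unsIdx_flKey (k := (c.1 k, c.2 k)) (h.2 k))

/-- The partner of a band point. -/
def thPt (x : BPt) : BPt := ⟨flipPnt x.1, x.2⟩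

theorem flipIdx_val (a : ℕ) (i : Fin (a + 1)) : (flipIdx a i : ℕ) = (flKey (a, (i : ℕ))).2 := by
  by_cases h : a % 2 = 1 <;> simp [flipIdx, flKey, h]

theorem bcrd_thPt (x : BPt) : bcrd (thPt x) = thCrd (bcrd x) :=
  Prod.ext rfl (funext fun k => flipIdx_val (x.1.1.1 k) (x.1.2 k))

theorem thPt_thPt (x : BPt) : thPt (thPt x) = x :=
  bcrd_injective (by rw [bcrd_thPt, bcrd_thPt, thCrd_thCrd (bcrd_valid x)])

theorem flipPntSgn_eq (x : BPt) : flipPntSgn x.1 = thSgn (bcrd x) := rfl

theorem bandTheta_apply (x y : BPt) :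
    bandTheta x y = if x = thPt y then thSgn (bcrd y) else 0 := by
  have hz : ∀ (z : PntK 20) (w : BPt), lab z.out ∉ band → tessMat 20 z w.1 = 0 := by
    intro z w hzb
    refine tessMat_zero fun e => hzb ?_
    have : lab z.out = lab w.1.out := funext fun k => congrArg (fun t => (t.1 k : ℕ)) e
    rw [this]
    exact w.2
  have hs : ∀ f : PntK 20 → ℂ, (∀ z, lab z.out ∉ band → f z = 0) →
      ∑ b : BPt, f b.1 = ∑ z, f z := fun f hf => by
    rw [← Finset.sum_subtype (Finset.univ.filter fun z : PntK 20 => lab z.out ∈ band) (by simp) f]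
    exact Finset.sum_filter_of_ne fun z _ hzf => not_not.1 fun e => hzf (hf z e)
  have e1 : bandTheta x y = ((tessMat 20)ᴴ * (thetaMat 20 * (tessMat 20).map star)) x.1 y.1 := by
    rw [bandTheta, Matrix.mul_assoc, Matrix.mul_apply, Matrix.mul_apply,
      ← hs (fun a => (tessMat 20)ᴴ x.1 a * (thetaMat 20 * (tessMat 20).map star) a y.1)
        (fun a ha => by simp [Matrix.conjTranspose_apply, hz a x ha])]
    refine Finset.sum_congr rfl fun a _ => ?_
    refine congrArg₂ (· * ·) rfl ?_
    rw [Matrix.mul_apply, Matrix.mul_apply,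
      ← hs (fun b => thetaMat 20 a.1 b * (tessMat 20).map star b y.1)
        (fun b hb => by simp [Matrix.map_apply, hz b y hb])]
    rfl
  rw [e1, show thetaMat 20 * (tessMat 20).map star =
    Matrix.of fun a b => flipPntSgn b * tessMat 20 a (flipPnt b) from thetaMat_tess]
  have e2 : ((tessMat 20)ᴴ *
      Matrix.of fun a b => flipPntSgn b * tessMat 20 a (flipPnt b)) x.1 y.1 =
      flipPntSgn y.1 * ((tessMat 20)ᴴ * tessMat 20) x.1 (flipPnt y.1) := by
    rw [Matrix.mul_apply, Matrix.mul_apply, Finset.mul_sum]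
    exact Finset.sum_congr rfl fun a _ => by rw [Matrix.of_apply]; ring
  rw [e2, tessMat_unitary.1, Matrix.one_apply, mul_ite, mul_one, mul_zero]
  exact if_congr ⟨fun e => Subtype.ext e, fun e => congrArg Subtype.val e⟩ (flipPntSgn_eq y) rfl

theorem isRealBand_apply {v : Matrix BPt BPt ℂ} (h : IsRealBand v) (x y : BPt) :
    v x y = thSgn (bcrd (thPt x)) * thSgn (bcrd (thPt y)) * star (v (thPt x) (thPt y)) := by
  have e := congrFun (congrFun h x) (thPt y)
  rw [Matrix.mul_apply, Matrix.mul_apply, Finset.sum_eq_single (thPt x),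
    Finset.sum_eq_single y] at e
  · rw [bandTheta_apply, bandTheta_apply, thPt_thPt, if_pos rfl, if_pos (thPt_thPt y).symm,
      Matrix.map_apply] at e
    have := congrArg (fun t => thSgn (bcrd (thPt y)) * t) e
    calc v x y = thSgn (bcrd (thPt y)) * (v x y * thSgn (bcrd (thPt y))) := by
          rw [mul_comm (v x y), ← mul_assoc, thSgn_sq, one_mul]
      _ = thSgn (bcrd (thPt y)) * (thSgn (bcrd (thPt x)) * star (v (thPt x) (thPt y))) := this.symm
      _ = _ := by ring
  · intro b _ hb
    rw [bandTheta_apply, if_neg, mul_zero]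
    intro hb'
    exact hb (by rw [hb', thPt_thPt])
  · simp
  · intro b _ hb
    rw [bandTheta_apply, if_neg, zero_mul]
    intro hb'
    exact hb (by rw [hb', thPt_thPt])
  · simp

/-- The real matrix generated by one entry. -/
def orb (x y : BPt) : ℂ →ₗ[ℝ] Matrix BPt BPt ℂ where
  toFun z := Matrix.of fun a b => (if bcrd a = bcrd x ∧ bcrd b = bcrd y then z else 0) +
    if bcrd a = thCrd (bcrd x) ∧ bcrd b = thCrd (bcrd y) then
      star z * (thSgn (bcrd x) * thSgn (bcrd y)) else 0
  map_add' z w := by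
    ext a b
    simp only [Matrix.add_apply, Matrix.of_apply, star_add]
    split_ifs <;> ring
  map_smul' r z := by
    ext a b
    simp only [Matrix.smul_apply, Matrix.of_apply, RingHom.id_apply, smul_add, star_smul, star_trivial, smul_ite,
      smul_zero, smul_mul_assoc]

theorem orb_apply (x y : BPt) (z : ℂ) (a b : BPt) :
    orb x y z a b = (if bcrd a = bcrd x ∧ bcrd b = bcrd y then z else 0) +
      if bcrd a = thCrd (bcrd x) ∧ bcrd b = thCrd (bcrd y) then
        star z * (thSgn (bcrd x) * thSgn (bcrd y)) else 0 := rfl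

/-- A real matrix is half the sum of the orbits of its entries. -/
theorem sum_orb {v : Matrix BPt BPt ℂ} (h : IsRealBand v) :
    v = (1 / 2 : ℝ) • ∑ x, ∑ y, orb x y (v x y) := by
  ext a b
  simp only [Matrix.smul_apply, Matrix.sum_apply]
  have e : ∀ x y : BPt, orb x y (v x y) a b = (if x = a then if y = b then v x y else 0 else 0) +
      if x = thPt a then if y = thPt b then
        star (v x y) * (thSgn (bcrd x) * thSgn (bcrd y)) else 0 else 0 := by
    intro x y
    rw [orb_apply]
    refine congrArg₂ (· + ·) ?_ ?_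
    · simp only [bcrd_injective.eq_iff, eq_comm (a := a), eq_comm (a := b), ite_and]
    · have i1 : ∀ a x : BPt, bcrd a = thCrd (bcrd x) ↔ x = thPt a := fun a x => by
        rw [← bcrd_thPt, bcrd_injective.eq_iff]
        exact ⟨fun e => by rw [e, thPt_thPt], fun e => by rw [e, thPt_thPt]⟩
      simp only [i1, ite_and]
  simp only [e, Finset.sum_add_distrib, Finset.sum_ite_irrel, Finset.sum_const_zero,
    Finset.sum_ite_eq', Finset.mem_univ, if_true]
  rw [Complex.real_smul, isRealBand_apply h a b]
  push_cast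
  ring

end Vale.Agent.P225
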